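import Vale.Agent.P181.DG.Defs

set_option autoImplicit false

/-!
# P181, DH: the sliver `2 a ≤ w < 2 a + a / polylog` near the diagonal

Adding `3 j` points by the squares of the areas of `j` triangles gives `a + √w` letters for only
`2 j + 2 j` cells of the rows one and two, and leaves a shape with two rows of about `a / 3` cells,
whose multiplicity beats the states with few letters. No strip is removed.
-/

open MvPolynomial

namespace Vale.Agent.P181.DH

open Vale.Agent.P181.T4 (HW ex low)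
open Vale.Agent.P181.H280 (plethMult)
open Vale.Agent.P181.H463 (gt)
open Vale.Agent.P181.SZ (TI)
open Vale.Agent.P181.PL (dn)

/-- **(H1)** the square of the area of a triangle: three points, weight `(2, 2)`, and a monomial
in which the three points occur. -/
def TriT : Prop := ∀ (a m : ℕ), 2 ≤ a →
  ∃ P ∈ TI 3 a (m + 2) (fun i => if (i : ℕ) < 2 then 2 else 0),
    ∃ v : Fin (m + 2) × Fin 3 →₀ ℕ, coeff v P ≠ 0 ∧ ∀ c, ∃ i, v (i, c) ≠ 0

/-- **(H2)** one more point. -/
def MonoTI : Prop := ∀ (a M m : ℕ) (nu : Fin m → ℕ),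
  Module.finrank ℂ (TI M a m nu) ≤ Module.finrank ℂ (TI (M + 1) a m nu)

/-- **(H3)** the semigroup property with the number of letters: `j` triangles have exactly `3 j`
letters, so their multiples are independent of the functions with at most `3 j` letters. -/
def SemT : Prop := ∀ (a M m j : ℕ) (mu nu : Fin (m + 2) → ℕ), 2 ≤ a →
  (∀ i, mu i = nu i + if (i : ℕ) < 2 then 2 * j else 0) → nu ≠ 0 →
  Module.finrank ℂ (TI (3 * j) a (m + 2) mu) + Module.finrank ℂ (TI M a (m + 2) nu) ≤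
    Module.finrank ℂ (TI (3 * j + M) a (m + 2) mu)

/-- **(H4)** the assembly: `DG.AsmR` without a strip. -/
def AsmH : Prop := ∀ (a b n R X Z K w a0 b0 j : ℕ) (lam nu : Fin n → ℕ), Antitone lam →
  ∑ i, lam i = a * b → ((∀ i, 0 < lam i) ∨ n ≤ Z * X ^ 2) → 2 ≤ R → R + 1 < n →
  w = dn lam 1 → Z ^ 2 ≤ w → w < (Z + 1) ^ 2 →
  1 ≤ K → 16 * K + 16 ≤ X → X ≤ Z → 4 * w ≤ X ^ K → 100 * K * ((Z + 1) * X) ≤ a →
  a + Z ≤ 3 * j → 3 * j + b0 ≤ b → Z * X ^ 2 + 2 ≤ a → a0 ≤ a → a ≤ w →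
  ex nu 1 + 2 * j = ex lam 1 → ex nu 2 + 2 * j = ex lam 2 → (∀ i, 3 ≤ i → ex nu i = ex lam i) →
  1 ≤ ex nu 1 →
  (n ≤ Z * X ^ 2 → (w + 1) ^ (R * (Z * X ^ 2)) *
    gt (n - (R + 1)) (Z * X ^ 2) (low (R + 1) lam) ≤ plethMult b0 a0 n nu) →
  plethMult a b n lam ≤ plethMult b a n lam

end Vale.Agent.P181.DH
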